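import Vale.Agent.P267.H618.EndX
import Vale.Agent.P267.H821.GeoB
import Vale.Agent.P267.H714.NFT
import Vale.Agent.P267.H714.Leaf
import Vale.Agent.P267.H759.ConnCov

/-!
# P267 / LINE X (helper618): the end of the proof

`endThmX`: `LineX.EndThm`, no hypotheses: leaf theorem (714, 217), normal form (714), geometry near
the crossing (759, 821), flat two-form (618, 821, 928), connectedness (759).
-/

set_option linter.unusedVariables false

open scoped Manifold ContDiff Topology
open Set Filter
open Vale.Agent.P267.FL Vale.Agent.P267.H158 Vale.Agent.P267.XT Vale.Agent.P267.H338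

noncomputable section

namespace Vale.Agent.P267.LineX

theorem onWThm : OnWThm := fun M _ _ _ _ D => D.exists_onW

theorem connThm : ConnThm := fun X _ _ _ _ _ _ n O Ch i a => by
  have h := H759.conn_cov Ch i a
  simpa only [mem_Iic] using h

/-- **The end of the proof of the Global Spherical Shell conjecture, by LINE X.** -/
theorem endThmX : EndThm := endThmX_of H714.leaf H714.nfThm onWThm connThm

end Vale.Agent.P267.LineX
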