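import Vale.Agent.P267.H618.Exact
import Vale.Agent.P267.H759.Kat
import Vale.Agent.P267.H759.RawNorm2

/-!
# P267 / LINE X (helper618): the end of the proof

`RawThm`: the geometry near `Z ∪ inner end` (helper821). `endThm_of`: the global spherical shell from
`RawThm`, the leaf theorem and the normal form at a crossing.
-/

set_option linter.unusedVariables false
set_option linter.unusedSectionVars false

open scoped Manifold ContDiff ComplexConjugate Matrix Topology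
open Set Filter Function
open Vale.Agent.P267.FL Vale.Agent.P267.H158 Vale.Agent.P267.XT Vale.Agent.P267.H338
open Vale.Agent.P267.H759 (RawA NormA LeafThm NFThm)

noncomputable section

namespace Vale.Agent.P267.LineX

section cover

variable {X : Type} [TopologicalSpace X] [ChartedSpace C2 X] [IsManifold 𝓘(ℂ, C2) ω X]
  {hh : C(X, UnitAddCircle)}

/-- local holomorphic sections of the cover -/
theorem cov_sec (y : Cov hh) : ∃ s : X → Cov hh, s (Cov.p y) = y ∧
    (∀ᶠ x in 𝓝 (Cov.p y), Cov.p (s x) = x) ∧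
    MDifferentiableAt 𝓘(ℂ, C2) 𝓘(ℂ, C2) s (Cov.p y) := by
  obtain ⟨Φ, hy, hΦ⟩ := H466.isLocalDiffeo (chartMap_p (hh := hh)) y
  have h1 : Cov.p y ∈ Φ.target := by
    rw [hΦ hy]
    exact Φ.map_source' hy
  refine ⟨Φ.symm, ?_, ?_, ?_⟩
  · rw [hΦ hy]
    exact Φ.left_inv' hy
  · filter_upwards [Φ.open_target.mem_nhds h1] with x hx
    have h2 : Φ.symm x ∈ Φ.source := Φ.map_target' hx
    rw [hΦ h2]
    exact Φ.right_inv' hx
  · exact ((Φ.symm.contMDiffOn.contMDiffAt (Φ.open_target.mem_nhds h1)).mdifferentiableAt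
      (by simp))

theorem mdiff_p : MDifferentiable 𝓘(ℂ, C2) 𝓘(ℂ, C2) (Cov.p : Cov hh → X) :=
  (H466.isLocalDiffeo (chartMap_p (hh := hh))).contMDiff.mdifferentiable (by simp)

theorem iterate_eq_shift {φ : Cov hh ≃ₜ Cov hh} (hφ : ∀ x, φ x = Cov.shift (-1) x) (k : ℕ)
    (x : Cov hh) : φ^[k] x = Cov.shift (-(k : ℤ)) x := by
  induction k with
  | zero => simp
  | succ k ih =>
    rw [Function.iterate_succ_apply', ih, hφ, ← Cov.shift_add]
    congr 1
    push_cast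
    ring_nf

theorem p_eq_iff_iter {φ : Cov hh ≃ₜ Cov hh} (hφ : ∀ x, φ x = Cov.shift (-1) x)
    (y y' : Cov hh) : Cov.p y = Cov.p y' ↔ ∃ k : ℕ, φ^[k] y = y' ∨ φ^[k] y' = y := by
  constructor
  · intro h
    obtain ⟨k, hk⟩ := Cov.p_eq_iff.1 h
    rcases le_total 0 k with h0 | h0
    · refine ⟨k.toNat, Or.inr ?_⟩
      rw [iterate_eq_shift hφ, Int.toNat_of_nonneg h0, hk, ← Cov.shift_add, neg_add_cancel,
        Cov.shift_zero]
    · refine ⟨(-k).toNat, Or.inl ?_⟩
      rw [iterate_eq_shift hφ, Int.toNat_of_nonneg (by omega), neg_neg, hk]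
  · rintro ⟨k, h | h⟩
    · rw [← h, iterate_eq_shift hφ, Cov.p_shift]
    · rw [← h, iterate_eq_shift hφ, Cov.p_shift]

end cover

/-- Global spherical shell from the raw geometry. -/
theorem hasGSS_of_rawA {X : Type} [TopologicalSpace X] [T2Space X] [CompactSpace X]
    [ConnectedSpace X] [ChartedSpace C2 X] [IsManifold 𝓘(ℂ, C2) ω X] {n : ℕ} (O : BlockOut X n)
    (hL : LeafThm) (hNF : NFThm) (R : RawA (Cov O.B.hh)) (hf : R.f = O.B.D.f)
    (hZ : ∀ x ∈ R.Z, O.B.D.sh (-1) x ∈ R.Z) : HasGSS X := by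
  obtain ⟨D, hD1, hD2⟩ := R.exists_normA hNF
  have hφ : ∀ x, O.B.D.γ.symm x = O.B.D.sh (-1) x := by
    intro x
    apply O.B.D.γ.injective
    rw [O.B.D.γ.apply_symm_apply, O.B.D.γ_sh]
    simp
  have hφ' : ∀ x, O.B.D.γ.symm x = Cov.shift (-1) x := by
    intro x
    rw [hφ, sh_eq_shift']
  refine D.hasGSS hL Cov.p Cov.surjective_p mdiff_p cov_sec O.B.D.γ.symm ?_
    (p_eq_iff_iter hφ') ?_ ?_
  · have h1 : (O.B.D.γ.symm : Cov O.B.hh → Cov O.B.hh) = O.B.D.sh (-1) := funext hφ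
    rw [h1]
    exact (H466.isLocalDiffeo (O.B.D.chartMap_sh (-1))).contMDiff.mdifferentiable (by simp)
  · intro y
    rw [hD1, hf, hφ, O.B.D.f_sh]
    push_cast
    ring
  · intro y hy
    rw [hD2] at hy ⊢
    rw [hφ]
    exact hZ y hy

/-- the geometry near `Z ∪ inner end` (helper821) -/
def RawThm : Prop :=
  ∀ (X : Type) [TopologicalSpace X] [T2Space X] [CompactSpace X] [ConnectedSpace X]
    [ChartedSpace C2 X] [IsManifold 𝓘(ℂ, C2) ω X] (n : ℕ) (O : BlockOut X n) (_ : Chain O)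
    (_ : Gauged O), ∃ R : RawA (Cov O.B.hh), R.f = O.B.D.f ∧ ∀ x ∈ R.Z, O.B.D.sh (-1) x ∈ R.Z

theorem endThm_of (hL : LeafThm) (hNF : NFThm) (hR : RawThm) : EndThm := by
  intro X _ _ _ _ _ _ n O Ch hF
  obtain ⟨G⟩ := nonempty_gauged O hF
  obtain ⟨R, hf, hZ⟩ := hR X n O Ch G
  exact hasGSS_of_rawA O hL hNF R hf hZ

end Vale.Agent.P267.LineX
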