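import Vale.Agent.P267.H618.ToGeo
import Vale.Agent.P267.H618.LineXEnd
import Vale.Agent.P267.H821.GeoRaw

/-!
# P267 / LINE X (helper618): the end of the proof, assembly
-/

set_option linter.unusedVariables false
set_option linter.unusedSectionVars false

open scoped Manifold ContDiff ComplexConjugate Matrix Topology
open Set Filter Function
open Vale.Agent.P267.FL Vale.Agent.P267.H158 Vale.Agent.P267.XT Vale.Agent.P267.H338
open Vale.Agent.P267.H759 (RawA NormA LeafThm NFThm)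

noncomputable section

namespace Vale.Agent.P267.LineX

/-- existence of `W`, `zz` and of the modified norm functions for one index (helper821) -/
def OnWThm : Prop :=
  ∀ (M : Type) [TopologicalSpace M] [T2Space M] [ChartedSpace C2 M] [IsManifold 𝓘(ℂ, C2) ω M]
    (D : H821.Geo M), ∃ i : ℤ, Nonempty (D.OnW i)

/-- the curves `C j`, `j ≤ i`, and the inner end are connected together (helper759) -/
def ConnThm : Prop :=
  ∀ (X : Type) [TopologicalSpace X] [T2Space X] [CompactSpace X] [ConnectedSpace X]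
    [ChartedSpace C2 X] [IsManifold 𝓘(ℂ, C2) ω X] (n : ℕ) (O : BlockOut X n) (Ch : Chain O) (i : ℤ)
    (a : ℝ), ∃ b, ∃ Q : Set (Cov O.B.hh), IsPreconnected Q ∧
      (⋃ j ≤ i, (Ch.C j).image) ∪ {x | O.B.D.f x < b} ⊆ Q ∧
      Q ⊆ (⋃ j ≤ i, (Ch.C j).image) ∪ {x | O.B.D.f x < a}

section

variable {X : Type} [TopologicalSpace X] [T2Space X] [CompactSpace X] [ChartedSpace C2 X]
  [IsManifold 𝓘(ℂ, C2) ω X] {n : ℕ} {O : BlockOut X n}

theorem Chain.toGeo_Z (Ch : Chain O) (G : Gauged O) (w : Cov O.B.hh → ℝ) (hw) (hcurv) (i : ℤ) :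
    (Ch.toGeo G w hw hcurv).Z i = ⋃ j ≤ i, (Ch.C j).image := by
  ext x
  rw [H821.Geo.mem_Z]
  simp only [mem_iUnion, exists_prop]
  rfl

theorem Chain.Z_shift (Ch : Chain O) (i : ℤ) {x : Cov O.B.hh}
    (hx : x ∈ ⋃ j ≤ i, (Ch.C j).image) : O.B.D.sh (-1) x ∈ ⋃ j ≤ i, (Ch.C j).image := by
  simp only [mem_iUnion, exists_prop] at hx ⊢
  obtain ⟨j, hj, hx⟩ := hx
  have h1 : (Ch.C j).image = O.B.D.sh 1 '' (Ch.C (j - n)).image := by
    rw [← Ch.C_shift, sub_add_cancel]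
  rw [h1] at hx
  obtain ⟨y, hy, rfl⟩ := hx
  refine ⟨j - n, by omega, ?_⟩
  rwa [← O.B.D.sh_add, neg_add_cancel, O.B.D.sh_zero]

end

theorem rawThm_of (hOn : OnWThm) (hC : ConnThm) : RawThm := by
  intro X _ _ _ _ _ _ n O Ch G
  obtain ⟨w, hw, hcurv⟩ := G.exists_w
  set D := Ch.toGeo G w hw hcurv with hD
  obtain ⟨i, ⟨W⟩⟩ := hOn _ D
  have hZ : D.Z i = ⋃ j ≤ i, (Ch.C j).image := Ch.toGeo_Z G w hw hcurv i
  obtain ⟨R, hR1, hR2⟩ := H821.Geo.exists_rawA W (by
    intro a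
    rw [hZ]
    exact hC X n O Ch i a)
  refine ⟨R, hR1, fun x hx => ?_⟩
  rw [hR2, hZ] at hx ⊢
  exact Ch.Z_shift i hx

/-- **The end of the proof by LINE X.** -/
theorem endThmX_of (hL : LeafThm) (hNF : NFThm) (hOn : OnWThm) (hC : ConnThm) : EndThm :=
  endThm_of hL hNF (rawThm_of hOn hC)

end Vale.Agent.P267.LineX
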