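import Vale.Agent.P267.H618.KForm

/-!
# P267 / GX-K (helper618): exact functions, local finiteness

For `G : Gauged O`: the positive factor `G.γ c` with `G.N c = G.γ c * O.N c`, the holomorphic
functions `G.ζ c` on `{f < c.2 - R'}` with `|ζ c|² = G.N c`, local finiteness of the family `G.N c`,
`c` bounded outward.
-/

set_option linter.unusedVariables false
set_option linter.unusedSectionVars false

open scoped Manifold ContDiff ComplexConjugate Matrix Topology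
open Set Filter Function
open Vale.Agent.P267.FL Vale.Agent.P267.H158 Vale.Agent.P267.XT Vale.Agent.P267.H338
open Vale.Agent.P267.H466 (gauge gsec e₀)
open Vale.Agent.P267.H757 (IsNormFn)
open Vale.Agent.P267.H332 (curvN)

noncomputable section

namespace Vale.Agent.P267.LineX

variable {X : Type} [TopologicalSpace X] [T2Space X] [CompactSpace X] [ChartedSpace C2 X]
  [IsManifold 𝓘(ℂ, C2) ω X] {n : ℕ}

namespace Gauged

variable {O : BlockOut X n} (G : Gauged O)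

/-! ### the factor -/

/-- `G.N c = G.γ c * O.N c` -/
def γ (c : Fin n × ℤ) (x : Cov O.B.hh) : ℝ :=
  Real.exp (-(2 * (G.u c.1 (O.B.D.sh (-c.2) x)).re))

theorem γ_pos (c : Fin n × ℤ) (x : Cov O.B.hh) : 0 < G.γ c x := Real.exp_pos _

theorem γ_smooth (c : Fin n × ℤ) : ContMDiff 𝓘(ℝ, C2) 𝓘(ℝ) ∞ (G.γ c) := by
  rw [← H158.reg0_real_iff]
  have h1 : Reg0 ∞ 0 (fun x => G.u c.1 (O.B.D.sh (-c.2) x)) :=
    (O.B.D.chartMap_sh (-c.2)).reg0_comp (G.u_reg c.1)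
  intro e he
  have h2 := h1 e he
  rw [LB.loc0_zero] at h2 ⊢
  have h3 : ContDiffOn ℝ ∞ (fun z => Real.exp (-(2 * (G.u c.1 (O.B.D.sh (-c.2) (e.symm z))).re)))
      e.target :=
    (contDiffOn_const.mul (Complex.reCLM.contDiff.comp_contDiffOn h2)).neg.exp
  exact Complex.ofRealCLM.contDiff.comp_contDiffOn h3

theorem N_eq (c : Fin n × ℤ) (x : Cov O.B.hh) : G.N c x = G.γ c x * O.N c x := by
  simp only [N, N₀, s, γ, BlockOut.N, BlockOut.bα, gsec, norm_smul, mul_pow, Complex.norm_exp,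
    Complex.neg_re]
  rw [← Real.exp_nat_mul]
  congr 2
  push_cast
  ring

/-- the factor is bounded above and below at the inner end -/
theorem γ_in (c : Fin n × ℤ) : ∃ K : ℝ, 0 < K ∧ ∀ x, O.B.D.f x ≤ -K →
    K⁻¹ ≤ G.γ c x ∧ G.γ c x ≤ K := by
  obtain ⟨K₁, c₁, hc₁, hu⟩ := G.u_in
  have hb : ∀ x, O.B.D.f x ≤ -(G.R' + |(c.2 : ℝ)|) → ‖G.u c.1 (O.B.D.sh (-c.2) x)‖ ≤ |K₁| := by
    intro x hx
    have h1 : O.B.D.f (O.B.D.sh (-c.2) x) ≤ -G.R' := by
      rw [f_sh_neg]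
      have := neg_abs_le (c.2 : ℝ)
      linarith
    have h2 := hu c.1 _ h1
    have h3 : Real.exp (c₁ * O.B.D.f (O.B.D.sh (-c.2) x)) ≤ 1 := by
      rw [Real.exp_le_one_iff]
      have := G.R'_pos
      exact mul_nonpos_of_nonneg_of_nonpos hc₁.le (by linarith)
    calc _ ≤ K₁ * Real.exp (c₁ * O.B.D.f (O.B.D.sh (-c.2) x)) := h2
      _ ≤ |K₁| * Real.exp (c₁ * O.B.D.f (O.B.D.sh (-c.2) x)) :=
          mul_le_mul_of_nonneg_right (le_abs_self _) (Real.exp_pos _).le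
      _ ≤ |K₁| * 1 := mul_le_mul_of_nonneg_left h3 (abs_nonneg _)
      _ = |K₁| := mul_one _
  set T := G.R' + |(c.2 : ℝ)| with hT
  have hT0 : 0 < T := by
    have := G.R'_pos
    have := abs_nonneg (c.2 : ℝ)
    linarith
  refine ⟨max T (Real.exp (2 * |K₁|)), by positivity, fun x hx => ?_⟩
  have h1 := hb x (hx.trans (neg_le_neg (le_max_left _ _)))
  have h2 : |(G.u c.1 (O.B.D.sh (-c.2) x)).re| ≤ |K₁| := (Complex.abs_re_le_norm _).trans h1
  rw [abs_le] at h2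
  have hK : Real.exp (2 * |K₁|) ≤ max T (Real.exp (2 * |K₁|)) := le_max_right _ _
  constructor
  · refine (inv_anti₀ (Real.exp_pos _) hK).trans ?_
    rw [← Real.exp_neg, γ, Real.exp_le_exp]
    linarith [h2.2]
  · refine le_trans ?_ hK
    rw [γ, Real.exp_le_exp]
    linarith [h2.1]

/-! ### exact functions -/

/-- the component of the gauged section -/
def ζ (c : Fin n × ℤ) (x : Cov O.B.hh) : ℂ := G.s c.1 (O.B.D.sh (-c.2) x) (O.i₀ c.1)

theorem continuous_f : Continuous O.B.D.f := H466.continuous_real O.B.D.f_smooth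

theorem isOpen_inner (T : ℝ) : IsOpen {x : Cov O.B.hh | O.B.D.f x < T} :=
  isOpen_lt continuous_f continuous_const

theorem s_eq (i : Fin n) {y : Cov O.B.hh} (hy : G.R' ≤ |O.B.D.f y|) :
    G.s i y = G.s i y (O.i₀ i) • e₀ (O.i₀ i) := by
  conv_lhs => rw [← G.s_sec i y, G.triv i y hy, H466.act_single]

theorem norm_s (i : Fin n) {y : Cov O.B.hh} (hy : G.R' ≤ |O.B.D.f y|) :
    ‖G.s i y‖ = ‖G.s i y (O.i₀ i)‖ := by
  conv_lhs => rw [G.s_eq i hy, norm_smul]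
  have : ‖(e₀ (O.i₀ i) : EuclideanSpace ℂ (O.E i).ι)‖ = 1 := by
    unfold e₀
    simp
  rw [this, mul_one]

theorem holOn_s (i : Fin n) : HolOn 0 (fun y => G.s i y (O.i₀ i))
    {y : Cov O.B.hh | O.B.D.f y < -G.R'} := by
  rw [holOn_iff_dbar0 (isOpen_inner _)]
  intro y hy
  have hy' : O.B.D.f y < -G.R' := hy
  have hab : G.R' ≤ |O.B.D.f y| := by
    rw [abs_of_neg (by linarith [G.R'_pos])]
    linarith
  have hs : At0 1 0 (G.s i) y := ((G.s_reg i).at y).of_le (by simp)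
  have hcl : (fun y => G.s i y (O.i₀ i)) =
      fun y => (PiLp.proj (𝕜 := ℂ) 2 (fun _ : (O.E i).ι => ℂ) (O.i₀ i)) (G.s i y) := rfl
  refine ⟨?_, ?_⟩
  · rw [hcl]
    exact hs.clm _
  · funext k
    rw [hcl, dbar0_clm _ hs k]
    have h1 := G.s_hol i y k
    have hb : G.b i y = 0 := G.a_zero i y hab
    rw [LB.db0, G.triv i y hab, hb, H466.act_single] at h1
    simp only [Pi.zero_apply, zero_smul, add_zero] at h1
    exact (smul_eq_zero.1 h1).resolve_right (H466.e₀_ne_zero _)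

theorem holOn_ζ (c : Fin n × ℤ) : HolOn 0 (G.ζ c) {x : Cov O.B.hh | O.B.D.f x < c.2 - G.R'} := by
  have h := (O.B.D.chartMap_sh (-c.2)).holOn_comp (isOpen_inner _) (G.holOn_s c.1)
  have h2 : O.B.D.sh (-c.2) ⁻¹' {y : Cov O.B.hh | O.B.D.f y < -G.R'} =
      {x : Cov O.B.hh | O.B.D.f x < c.2 - G.R'} := by
    ext x
    simp only [mem_preimage, mem_ofPred_eq]
    rw [f_sh_neg]
    constructor <;> intro h <;> linarith
  rw [h2] at h
  exact h

/-- `ζ c` is holomorphic on `{f < c.2 - R'}` -/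
theorem ζ_mdiff (c : Fin n × ℤ) {x : Cov O.B.hh} (hx : O.B.D.f x < c.2 - G.R') :
    MDifferentiableAt 𝓘(ℂ, C2) 𝓘(ℂ, ℂ) (G.ζ c) x :=
  ((holOn_zero_iff_mdifferentiableOn (isOpen_inner _)).1 (G.holOn_ζ c) x hx).mdifferentiableAt
    ((isOpen_inner _).mem_nhds hx)

theorem norm_ζ_eq (c : Fin n × ℤ) {x : Cov O.B.hh} (hx : O.B.D.f x ≤ c.2 - G.R') :
    ‖G.ζ c x‖ = ‖G.s c.1 (O.B.D.sh (-c.2) x)‖ := by
  rw [ζ, G.norm_s c.1]
  rw [f_sh_neg, abs_of_nonpos (by linarith [G.R'_pos])]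
  linarith

theorem norm_ζ (c : Fin n × ℤ) {x : Cov O.B.hh} (hx : O.B.D.f x ≤ c.2 - G.R') :
    ‖G.ζ c x‖ ^ 2 = G.N c x := by
  rw [G.norm_ζ_eq c hx]
  rfl

/-- `N c → 0` at the inner end -/
theorem N_in (c : Fin n × ℤ) (ε : ℝ) (hε : 0 < ε) : ∃ a : ℝ, ∀ x, O.B.D.f x < a → G.N c x < ε := by
  obtain ⟨K, hK, hγ⟩ := G.γ_in c
  obtain ⟨C, hC⟩ := (O.cone c.1).α_in
  have hd' : 0 < O.d₀ / 2 := (O.cone c.1).d_pos.trans (O.cone c.1).d_lt
  -- `|α|² ≤ C² e^{2 d' f}`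
  have hlim : Tendsto (fun t : ℝ => K * (|C| * Real.exp (O.d₀ / 2 * (t - c.2))) ^ 2) atBot (𝓝 0) := by
    have h1 : Tendsto (fun t : ℝ => O.d₀ / 2 * (t - c.2)) atBot atBot :=
      (tendsto_atBot_add_const_right _ _ tendsto_id).const_mul_atBot hd'
    have h2 := ((Real.tendsto_exp_atBot.comp h1).const_mul |C|).pow 2 |>.const_mul K
    simpa using h2
  obtain ⟨a, ha⟩ := eventually_atBot.1 (hlim.eventually (gt_mem_nhds hε))
  refine ⟨min (min a (-K)) (c.2), fun x hx => ?_⟩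
  have hxa : O.B.D.f x ≤ a := (hx.trans_le ((min_le_left _ _).trans (min_le_left _ _))).le
  have hxK : O.B.D.f x ≤ -K := (hx.trans_le ((min_le_left _ _).trans (min_le_right _ _))).le
  have hxc : O.B.D.f x - c.2 ≤ 0 := by
    have := hx.trans_le (min_le_right _ _)
    linarith
  have h1 : ‖O.α c.1 (O.B.D.sh (-c.2) x)‖ ≤ |C| * Real.exp (O.d₀ / 2 * (O.B.D.f x - c.2)) := by
    have := hC (O.B.D.sh (-c.2) x) (by rw [f_sh_neg]; exact hxc)
    rw [f_sh_neg] at this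
    exact this.trans (mul_le_mul_of_nonneg_right (le_abs_self _) (Real.exp_pos _).le)
  refine lt_of_le_of_lt ?_ (ha _ hxa)
  rw [G.N_eq]
  refine mul_le_mul (hγ x hxK).2 ?_ (by simp only [BlockOut.N]; positivity) hK.le
  exact pow_le_pow_left₀ (norm_nonneg _) h1 2

/-- `ζ c → 0` at the inner end -/
theorem ζ_in (c : Fin n × ℤ) (ε : ℝ) (hε : 0 < ε) :
    ∃ a : ℝ, ∀ x, O.B.D.f x < a → ‖G.ζ c x‖ < ε := by
  obtain ⟨a, ha⟩ := G.N_in c (ε ^ 2) (by positivity)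
  refine ⟨min a (c.2 - G.R'), fun x hx => ?_⟩
  have h1 := ha x (hx.trans_le (min_le_left _ _))
  rw [← G.norm_ζ c (hx.trans_le (min_le_right _ _)).le] at h1
  exact lt_of_pow_lt_pow_left₀ 2 hε.le h1

/-! ### local finiteness -/

/-- near every point only finitely many `N c`, `c.2 ≤ k`, are different from `1` -/
theorem locFin (k : ℤ) (x : Cov O.B.hh) : ∃ I : Finset (Fin n × ℤ),
    ∀ᶠ y in 𝓝 x, ∀ c : Fin n × ℤ, c.2 ≤ k → c ∉ I → G.N c y = 1 := by
  classical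
  refine ⟨Finset.univ ×ˢ Finset.Icc ⌊O.B.D.f x - 1 - G.R'⌋ k, ?_⟩
  have h1 : ∀ᶠ y in 𝓝 x, O.B.D.f x - 1 < O.B.D.f y :=
    continuous_f.continuousAt.eventually_const_lt (by linarith)
  filter_upwards [h1] with y hy c hck hcI
  apply G.N_out
  simp only [Finset.mem_product, Finset.mem_univ, true_and, Finset.mem_Icc, not_and_or,
    not_le] at hcI
  rcases hcI with h | h
  · have h2 : (c.2 : ℝ) < O.B.D.f x - 1 - G.R' := by
      refine lt_of_lt_of_le ?_ (Int.floor_le _)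
      exact_mod_cast h
    linarith
  · exact absurd hck (not_le.2 h)

end Gauged

/-! ### the order -/

namespace Chain

variable {O : BlockOut X n} (Ch : Chain O)

theorem ord_add (i : Fin n) (k : ℤ) : Ch.ord (i, k) = Ch.ord (i, 0) + n * k := by
  induction k using Int.induction_on with
  | zero => simp
  | succ k ih =>
    rw [Ch.ord_shift, ih]
    ring
  | pred k ih =>
    have h := Ch.ord_shift i (-(k : ℤ) - 1)
    rw [sub_add_cancel, ih] at h
    linarith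

/-- `ord c ≤ l` bounds `c.2` from above -/
theorem ord_bdd (l : ℤ) : ∃ k : ℤ, ∀ c : Fin n × ℤ, Ch.ord c ≤ l → c.2 ≤ k := by
  have hn : (0 : ℤ) < n := by exact_mod_cast O.vii.pos
  obtain ⟨m, hm⟩ := (Set.finite_range fun i : Fin n => Ch.ord (i, 0)).bddBelow
  refine ⟨|l - m|, fun c hc => ?_⟩
  have h1 : m ≤ Ch.ord (c.1, 0) := hm ⟨c.1, rfl⟩
  have h2 : Ch.ord c = Ch.ord (c.1, 0) + n * c.2 := Ch.ord_add c.1 c.2
  have h3 : n * c.2 ≤ l - m := by linarith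
  by_contra hcon
  push Not at hcon
  have h4 : 0 ≤ |l - m| := abs_nonneg _
  have h5 : |l - m| < n * c.2 := by nlinarith
  exact absurd (h5.trans_le h3) (not_lt.2 (le_abs_self _))

/-- large `ord c` gives large `c.2` -/
theorem ord_large (b : ℤ) : ∃ l₀ : ℤ, ∀ c : Fin n × ℤ, l₀ ≤ Ch.ord c → b ≤ c.2 := by
  have hn : (0 : ℤ) < n := by exact_mod_cast O.vii.pos
  obtain ⟨m, hm⟩ := (Set.finite_range fun i : Fin n => Ch.ord (i, 0)).bddAbove
  refine ⟨m + n * b, fun c hc => ?_⟩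
  have h1 : Ch.ord (c.1, 0) ≤ m := hm ⟨c.1, rfl⟩
  have h2 : Ch.ord c = Ch.ord (c.1, 0) + n * c.2 := Ch.ord_add c.1 c.2
  have h3 : n * b ≤ n * c.2 := by linarith
  exact le_of_mul_le_mul_left h3 hn

theorem ord_large' (b : ℝ) : ∃ l₀ : ℤ, ∀ c : Fin n × ℤ, l₀ ≤ Ch.ord c → b ≤ c.2 := by
  obtain ⟨l₀, h⟩ := Ch.ord_large ⌈b⌉
  refine ⟨l₀, fun c hc => (Int.le_ceil b).trans ?_⟩
  exact_mod_cast h c hc

end Chain

end Vale.Agent.P267.LineX
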