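import Vale.Agent.P267.H618.Gauge
import Vale.Agent.P267.H457.Chain
import Vale.Agent.P267.H821.FlatFam
import Vale.Agent.P267.H622.CovInt
import Vale.Agent.P267.H622.PushXT
import Vale.Agent.P267.H622.PushF
import Vale.Agent.P267.H466.Push
import Vale.Agent.P267.H158.Herm
import Vale.Agent.P267.H928.K1.Main
import Vale.Agent.P267.H821.Ddb

/-!
# P267 / GX-K (helper618): the potential of `ricF - ∑ curvatures`

For `O : BlockOut X n` with exact frames at both ends: gauges `u i` such that the holomorphic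
structures have compact support (`Gauged O`), norm functions `G.N c` of the gauged sections,
`c : Fin n × ℤ`, and a smooth function `w` with `∑ᶠ_c curvN (N c) = ricF h - ∂∂̄ w` (`exists_w`).

-/

set_option linter.unusedVariables false
set_option linter.unusedSectionVars false

open scoped Manifold ContDiff ComplexConjugate Matrix Topology
open Set Filter Function
open Vale.Agent.P272.K (Cm)
open Vale.Agent.P267.FL Vale.Agent.P267.H158 Vale.Agent.P267.XT Vale.Agent.P267.H338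
open Vale.Agent.P267.H466 (gauge gsec e₀)
open Vale.Agent.P267.H757 (IsNormFn)
open Vale.Agent.P267.H332 (curvN)

noncomputable section

namespace Vale.Agent.P267.LineX

section gen

variable {M : Type} [TopologicalSpace M] [ChartedSpace C2 M] [IsManifold 𝓘(ℂ, C2) ω M]
variable {ι : Type} [Fintype ι] [DecidableEq ι]

theorem del10_zero (x : M) : del10 (fun _ : M => (0 : Fin 2 → ℂ)) x = 0 := by
  have h := del10_sum (x := x) (S := (∅ : Finset ℕ)) (s := fun _ _ => (0 : Fin 2 → ℂ))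
    (fun i hi => by simp at hi)
  simpa using h

theorem del1_zero (x : M) : del1 (fun _ : M => (0 : Fin 2 → ℂ)) x = 0 := by
  have h := del1_sum (x := x) (S := (∅ : Finset ℕ)) (s := fun _ _ => (0 : Fin 2 → ℂ))
    (fun i hi => by simp at hi)
  simpa using h

theorem dbar10_zero (x : M) : dbar10 (fun _ : M => (0 : Fin 2 → ℂ)) x = 0 := by
  have h := dbar10_sum (x := x) (S := (∅ : Finset ℕ)) (s := fun _ _ => (0 : Fin 2 → ℂ))
    (fun i hi => by simp at hi)
  simpa using h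

theorem dbar1_zero (x : M) : dbar1 0 (fun _ : M => (0 : Fin 2 → ℂ)) x = 0 := by
  have h := dbar1_sum (κ := 0) (x := x) (S := (∅ : Finset ℕ)) (s := fun _ _ => (0 : Fin 2 → ℂ))
    (fun i hi => by simp at hi)
  simpa using h

/-- the Chern curvature vanishes where the bundle and the holomorphic structure are trivial -/
theorem chern11_eq_zero {L : LB M ι} {i₀ : ι} {a : M → Fin 2 → ℂ} {x : M}
    (hP : ∀ᶠ y in 𝓝 x, L.P y = Matrix.single i₀ i₀ 1) (ha : ∀ᶠ y in 𝓝 x, a y = 0) :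
    (L.chern a).f11 x = 0 := by
  have h1 : ∀ i j, (fun y => L.P y i j) =ᶠ[𝓝 x] fun _ => Matrix.single i₀ i₀ (1 : ℂ) i j :=
    fun i j => hP.mono fun y hy => by simp only [hy]
  have h2 : ∀ (c : ℂ) (k : Fin 2), del0 (fun _ : M => c) x k = 0 := by
    intro c k
    rw [del0]
    exact FL.dz_const _ _ _
  have h3 : ∀ (c : ℂ) (k : Fin 2), dbar0 0 (fun _ : M => c) x k = 0 := by
    intro c k
    rw [dbar0, LB.loc0_zero]
    exact FL.dzb_const _ _ _
  have hF : L.F11 x = 0 := by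
    ext k l
    rw [LB.F11, Matrix.of_apply]
    have e1 : (Matrix.of fun i j => del0 (fun y => L.P y i j) x k) = 0 := by
      ext i j
      rw [Matrix.of_apply, del0_congr (h1 i j), h2, Matrix.zero_apply]
    have e2 : (Matrix.of fun i j => dbar0 0 (fun y => L.P y i j) x l) = 0 := by
      ext i j
      rw [Matrix.of_apply, dbar0_congr (h1 i j), h3, Matrix.zero_apply]
    rw [e1, e2]
    simp
  have ha' : a =ᶠ[𝓝 x] fun _ => 0 := ha
  have hb' : (fun y i => -conj (a y i)) =ᶠ[𝓝 x] fun _ => (0 : Fin 2 → ℂ) := by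
    filter_upwards [ha] with y hy
    funext i
    rw [hy]
    simp
  change L.F11 x + (del1 a x + dbar10 (fun y i => -conj (a y i)) x) = 0
  rw [hF, del1_congr ha', dbar10_congr hb', del1_zero, dbar10_zero]
  simp

end gen

variable {X : Type} [TopologicalSpace X] [T2Space X] [CompactSpace X] [ChartedSpace C2 X]
  [IsManifold 𝓘(ℂ, C2) ω X] {n : ℕ}

/-- the sections tend to the basis vector at the outer end -/
def OuterLimit (O : BlockOut X n) : Prop :=
  ∀ i, Tendsto (fun x => O.α i x (O.i₀ i)) (comap O.B.D.f atTop) (𝓝 1)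

theorem outerLimit (O : BlockOut X n) : OuterLimit O := by
  intro i
  have hd : 0 < O.d₀ / 4 := (O.cone i).d_pos
  obtain ⟨A, hA, hout⟩ := (O.full i).out
  have h1 : Tendsto (fun x => A * Real.exp (-(O.d₀ / 4) * O.B.D.f x)) (comap O.B.D.f atTop)
      (𝓝 0) := by
    have h2 : Tendsto (fun t : ℝ => A * Real.exp (-(O.d₀ / 4) * t)) atTop (𝓝 0) := by
      have h3 : Tendsto (fun t : ℝ => -(O.d₀ / 4) * t) atTop atBot :=
        tendsto_id.const_mul_atTop_of_neg (by linarith)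
      have h4 := (Real.tendsto_exp_atBot.comp h3).const_mul A
      simpa using h4
    exact h2.comp tendsto_comap
  rw [tendsto_iff_norm_sub_tendsto_zero]
  refine squeeze_zero' (Eventually.of_forall fun x => norm_nonneg _) ?_ h1
  have h5 : ∀ᶠ x in comap O.B.D.f atTop, O.Rc i ≤ O.B.D.f x :=
    tendsto_comap.eventually (eventually_ge_atTop _)
  filter_upwards [h5] with x hx
  have h6 := (PiLp.norm_apply_le (O.α i x - EuclideanSpace.single (O.i₀ i) 1) (O.i₀ i)).trans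
    (hout x hx)
  simpa using h6

/-- gauges which trivialise the holomorphic structures at both ends -/
structure Gauged (O : BlockOut X n) where
  R' : ℝ
  R'_pos : 0 < R'
  u : Fin n → Cov O.B.hh → ℂ
  u_reg : ∀ i, Reg0 ∞ 0 (u i)
  u_in : ∃ K c : ℝ, 0 < c ∧ ∀ i x, O.B.D.f x ≤ -R' → ‖u i x‖ ≤ K * Real.exp (c * O.B.D.f x)
  triv : ∀ i x, R' ≤ |O.B.D.f x| → (O.E i).L.P x = Matrix.single (O.i₀ i) (O.i₀ i) 1
  a_zero : ∀ i x, R' ≤ |O.B.D.f x| → gauge (O.a i) (u i) x = 0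
  out : ∀ i x, R' ≤ O.B.D.f x → gsec (u i) (O.α i) x = e₀ (O.i₀ i)

theorem nonempty_gauged (O : BlockOut X n) (hF : ExactFrames O) :
    Nonempty (Gauged O) := by
  have hout := outerLimit O
  obtain ⟨R₀, c, K, hc, hψ⟩ := hF
  choose ψ hψreg hψa hψb using hψ
  have key : ∀ i, ∃ R' : ℝ, O.Rc i ≤ R' ∧ 0 < R' ∧ ∃ u : Cov O.B.hh → ℂ, Reg0 ∞ 0 u ∧
      (∀ x, R' ≤ O.B.D.f x → gsec u (O.α i) x = e₀ (O.i₀ i)) ∧
      (∀ x, O.B.D.f x ≤ -R' → u x = -ψ i x) ∧
      (∀ x k, R' ≤ |O.B.D.f x| → gauge (O.a i) u x k = 0) := by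
    intro i
    have hx := O.cone i
    obtain ⟨R', h1, h2, u, h3, h4, h5, h6, h7, h8, h9, h10⟩ :=
      H618.exists_gauge O.B.D hx.hol hx.triv hx.α_reg hx.α_sec hx.α_hol one_ne_zero (hout i)
        (ψ := ψ i) (T₀ := -R₀) (fun x _ => (hψreg i).at x) (fun x hx' j => hψa i x hx' j)
    exact ⟨R', h1, h2, u, h3, h8, h9, h10⟩
  choose R' h1 h2 u h3 h4 h5 h6 using key
  obtain ⟨T, hT⟩ : ∃ T : ℝ, ∀ i, R' i ≤ T := by
    obtain ⟨T, hT⟩ := (Set.finite_range R').bddAbove
    exact ⟨T, fun i => hT ⟨i, rfl⟩⟩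
  refine ⟨{ R' := max T 1, R'_pos := by positivity, u := u, u_reg := h3,
            u_in := ⟨K, c, hc, fun i x hx => ?_⟩,
            triv := fun i x hx => ?_, a_zero := fun i x hx => ?_, out := fun i x hx => ?_ }⟩
  · have hx1 : O.B.D.f x ≤ -R' i := hx.trans (neg_le_neg ((hT i).trans (le_max_left _ _)))
    have hx0 : O.B.D.f x ≤ 0 := hx.trans (by
      have := le_max_right T 1
      linarith)
    rw [h5 i x hx1, norm_neg]
    exact hψb i x hx0
  · exact (O.cone i).triv x ((h1 i).trans ((hT i).trans ((le_max_left _ _).trans hx)))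
  · funext k
    exact h6 i x k ((hT i).trans ((le_max_left _ _).trans hx))
  · exact h4 i x ((hT i).trans ((le_max_left _ _).trans hx))

namespace Gauged

variable {O : BlockOut X n} (G : Gauged O)

/-- the gauged sections -/
def s (i : Fin n) : Cov O.B.hh → EuclideanSpace ℂ (O.E i).ι := gsec (G.u i) (O.α i)

/-- the gauged holomorphic structures -/
def b (i : Fin n) : Cov O.B.hh → Fin 2 → ℂ := gauge (O.a i) (G.u i)

/-- their curvatures -/
def F (i : Fin n) : TwoF (Cov O.B.hh) := (O.E i).L.chern (G.b i)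

theorem hol (i : Fin n) : (O.E i).L.IsHol (G.b i) := H466.isHol_gauge (O.cone i).hol (G.u_reg i)

theorem s_reg (i : Fin n) : Reg0 ∞ 0 (G.s i) := H466.gsec_reg (G.u_reg i) (O.cone i).α_reg

theorem s_sec (i : Fin n) : (O.E i).L.Sec (G.s i) := H466.gsec_sec (O.cone i).α_sec _

theorem s_hol (i : Fin n) (x : Cov O.B.hh) (k : Fin 2) : (O.E i).L.db0 (G.b i) 0 (G.s i) x k = 0 := by
  rw [b, s, H466.db0_gauge (O.a i) (G.u_reg i) (O.cone i).α_reg (O.cone i).α_sec,
    (O.cone i).α_hol x k, smul_zero]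

theorem s_zero (i : Fin n) (x : Cov O.B.hh) : G.s i x = 0 ↔ O.α i x = 0 := H466.gsec_eq_zero

theorem s_dense (i : Fin n) : Dense {x | G.s i x ≠ 0} := by
  have h : {x | G.s i x ≠ 0} = {x | O.α i x ≠ 0} := by
    ext x
    exact not_congr (G.s_zero i x)
  rw [h]
  exact (O.cone i).α_dense

/-- the norm functions of the gauged sections -/
def N₀ (i : Fin n) : Cov O.B.hh → ℝ := fun x => ‖G.s i x‖ ^ 2

theorem isNormFn_N₀ (i : Fin n) : IsNormFn C2 (G.N₀ i) :=
  (H821.lbnf (G.hol i) (G.s_reg i) (G.s_sec i) (fun x k => G.s_hol i x k) (G.s_dense i)).1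

theorem cF_N₀ (i : Fin n) : H332.cF (G.N₀ i) = G.F i :=
  (H821.lbnf (G.hol i) (G.s_reg i) (G.s_sec i) (fun x k => G.s_hol i x k) (G.s_dense i)).2

theorem F11 (i : Fin n) : (G.F i).f11 = curvN (G.N₀ i) := by
  rw [← G.cF_N₀]
  rfl

theorem F_eq (i : Fin n) : G.F i = ⟨fun _ => 0, curvN (G.N₀ i), fun _ => 0⟩ := (G.cF_N₀ i).symm

/-- the curvatures are supported in `{|f| ≤ R'}` -/
theorem curvN_N₀_eq_zero (i : Fin n) {x : Cov O.B.hh} (hx : G.R' < |O.B.D.f x|) :
    curvN (G.N₀ i) x = 0 := by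
  have hc : Continuous O.B.D.f := H466.continuous_real O.B.D.f_smooth
  have hev : ∀ᶠ y in 𝓝 x, G.R' < |O.B.D.f y| := hc.abs.continuousAt.eventually_const_lt hx
  rw [← G.F11]
  exact chern11_eq_zero (i₀ := O.i₀ i) (hev.mono fun y hy => G.triv i y hy.le)
    (hev.mono fun y hy => G.a_zero i y hy.le)

theorem isCompact_core : IsCompact {x | |O.B.D.f x| ≤ G.R'} := by
  have h : {x | |O.B.D.f x| ≤ G.R'} = O.B.D.f ⁻¹' Icc (-G.R') G.R' := by
    ext x
    simp only [mem_ofPred_eq, mem_preimage, mem_Icc, abs_le]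
  rw [h]
  exact O.B.D.f_proper _ _

theorem cf_F (i : Fin n) : CF (G.F i) := by
  refine ⟨_, G.isCompact_core, fun x hx => ?_⟩
  rw [G.F_eq]
  exact ⟨rfl, G.curvN_N₀_eq_zero i (not_le.1 hx), rfl⟩

/-- the norm functions of the translates -/
def N (c : Fin n × ℤ) : Cov O.B.hh → ℝ := fun x => G.N₀ c.1 (O.B.D.sh (-c.2) x)

theorem isNormFn_N (c : Fin n × ℤ) : IsNormFn C2 (G.N c) :=
  H466.isNormFn_comp (O.B.D.chartMap_sh (-c.2)) (G.isNormFn_N₀ c.1)

theorem curvN_N (c : Fin n × ℤ) (x : Cov O.B.hh) :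
    curvN (G.N c) x = curvN (G.N₀ c.1) (O.B.D.sh (-c.2) x) :=
  H332.curvN_comp (N := G.N₀ c.1) (G.isNormFn_N₀ c.1) (q := O.B.D.sh (-c.2)) (G.isNormFn_N c)
    (O.B.D.continuous_sh (-c.2)).continuousAt ((O.B.D.chartMap_sh (-c.2)).germ x)

theorem N_zero (c : Fin n × ℤ) (x : Cov O.B.hh) : G.N c x = 0 ↔ O.N c x = 0 := by
  simp only [N, N₀, BlockOut.N, BlockOut.bα, sq_eq_zero_iff, norm_eq_zero]
  exact G.s_zero c.1 _

theorem f_sh_neg (c : Fin n × ℤ) (x : Cov O.B.hh) :
    O.B.D.f (O.B.D.sh (-c.2) x) = O.B.D.f x - c.2 := by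
  rw [O.B.D.f_sh]
  push_cast
  ring

/-- `N c = 1` outward -/
theorem N_out (c : Fin n × ℤ) {x : Cov O.B.hh} (hx : G.R' ≤ O.B.D.f x - c.2) : G.N c x = 1 := by
  have h := G.out c.1 (O.B.D.sh (-c.2) x) (by rw [f_sh_neg]; exact hx)
  rw [N, N₀, s, h, e₀]
  simp

theorem curvN_N_eq_zero (c : Fin n × ℤ) {x : Cov O.B.hh} (hx : G.R' < |O.B.D.f x - c.2|) :
    curvN (G.N c) x = 0 := by
  rw [G.curvN_N]
  exact G.curvN_N₀_eq_zero c.1 (by rw [f_sh_neg]; exact hx)

/-- the sum of all curvatures -/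
theorem finsum_curvN (x : Cov O.B.hh) :
    ∑ᶠ c : Fin n × ℤ, curvN (G.N c) x =
      ∑ i, ∑ᶠ k : ℤ, curvN (G.N₀ i) (O.B.D.sh k x) := by
  classical
  set I : Finset ℤ := Finset.Icc ⌊O.B.D.f x - G.R'⌋ ⌈O.B.D.f x + G.R'⌉ with hI
  have hout : ∀ (i : Fin n) (k : ℤ), k ∉ I → curvN (G.N (i, k)) x = 0 := by
    intro i k hk
    apply G.curvN_N_eq_zero (i, k)
    rw [hI, Finset.mem_Icc, not_and_or, not_le, not_le] at hk
    rcases hk with h | h
    · have h1 : (k : ℝ) < O.B.D.f x - G.R' := by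
        refine lt_of_lt_of_le ?_ (Int.floor_le (O.B.D.f x - G.R'))
        exact_mod_cast h
      rw [lt_abs]
      left
      simp only
      linarith
    · have h1 : O.B.D.f x + G.R' < (k : ℝ) := by
        refine lt_of_le_of_lt (Int.le_ceil (O.B.D.f x + G.R')) ?_
        exact_mod_cast h
      rw [lt_abs]
      right
      simp only
      linarith
  have h1 : support (fun c : Fin n × ℤ => curvN (G.N c) x) ⊆
      ((Finset.univ ×ˢ I : Finset (Fin n × ℤ)) : Set (Fin n × ℤ)) := by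
    rintro ⟨i, k⟩ hc
    simp only [Finset.coe_product, Finset.coe_univ, mem_prod, mem_univ, true_and, Finset.mem_coe]
    by_contra hk
    exact hc (hout i k hk)
  rw [finsum_eq_sum_of_support_subset _ h1, Finset.sum_product]
  refine Finset.sum_congr rfl fun i _ => ?_
  have h2 : support (fun k : ℤ => curvN (G.N (i, k)) x) ⊆ (I : Set ℤ) := by
    intro k hc
    by_contra hk
    exact hc (hout i k hk)
  rw [← finsum_eq_sum_of_support_subset _ h2]
  have h3 : (fun k : ℤ => curvN (G.N (i, k)) x) =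
      fun k : ℤ => curvN (G.N₀ i) (O.B.D.sh (Equiv.neg ℤ k) x) := by
    funext k
    rw [G.curvN_N]
    rfl
  rw [h3]
  exact finsum_comp_equiv (Equiv.neg ℤ) (f := fun k : ℤ => curvN (G.N₀ i) (O.B.D.sh k x))

end Gauged

theorem sh_eq_shift' (B : Asm.Base X) (k : ℤ) (x : Cov B.hh) : B.D.sh k x = Cov.shift k x := by
  revert k
  apply XTData.sh_induction
  · rw [B.D.sh_zero, Cov.shift_zero]
  · intro k hk
    rw [← B.D.γ_sh, hk, B.γ_eq, Cov.γ, ← Cov.shift_add, add_comm]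
  · intro k hk
    have h1 : B.D.γ (B.D.sh (k - 1) x) = B.D.sh k x := by rw [B.D.γ_sh, sub_add_cancel]
    have h2 : Cov.γ (Cov.shift (k - 1) x) = Cov.shift k x := by
      rw [Cov.γ, ← Cov.shift_add, add_sub_cancel]
    rw [B.γ_eq, hk, ← h2] at h1
    exact (Cov.γ (h := B.hh)).injective h1

/-! ### forms -/

section forms

variable {M : Type} [TopologicalSpace M] [ChartedSpace C2 M] [IsManifold 𝓘(ℂ, C2) ω M]
variable {ι : Type} [Fintype ι] [DecidableEq ι]

/-- the one-form `a - ā` -/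
def cnF (a : M → Fin 2 → ℂ) : OneF M := ⟨fun y i => -conj (a y i), a⟩

theorem chern_eq_add (L : LB M ι) (a : M → Fin 2 → ℂ) : L.chern a = L.curv + (cnF a).d := rfl

theorem cnF_smooth {a : M → Fin 2 → ℂ} (ha : Reg1 ∞ 0 a) : (cnF a).Smooth := by
  refine ⟨?_, ha⟩
  have h := H469.r1cj ha
  have : (fun y i => -conj (a y i)) = (-1 : ℂ) • H469.cj1 a := by
    funext y i
    simp [H469.cj1]
  show Reg10 ∞ (fun y i => -conj (a y i))
  rw [this]
  intro e he
  have h2 := h e he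
  have h3 : loc10 e ((-1 : ℂ) • H469.cj1 a) = fun z => (-1 : ℂ) • loc10 e (H469.cj1 a) z := by
    funext z i
    exact H469.loc10_smul e z (-1) _ i
  rw [h3]
  exact h2.const_smul (-1 : ℂ)

theorem smooth_dOne {A : OneF M} (hA : A.Smooth) : A.d.Smooth := by
  refine ⟨H469.reg_del10 hA.s10, ?_, H469.reg_dbar1 hA.s01⟩
  have e1 := H469.reg_del1 hA.s01
  have e2 := H469.reg_dbar10 hA.s10
  intro e he i j
  have : (fun z => loc11 e A.d.f11 z i j) =
      fun z => loc11 e (del1 A.f01) z i j + loc11 e (dbar10 A.f10) z i j := by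
    funext z
    exact H469.loc11_add e z _ _ i j
  rw [this]
  exact (e1 e he i j).add (e2 e he i j)

/-- `∂∂̄ log det h` is Hermitian -/
theorem ricF_herm {h : M → Matrix (Fin 2) (Fin 2) ℂ} (hh : IsHerm h) (x : M) (i j : Fin 2) :
    H821.ricF h x j i = conj (H821.ricF h x i j) := by
  rw [H821.ricF]
  refine H332.ddz_real (H332.contDiffAt_ofReal (((H821.contDiffOn_logdet hh
    (chart_mem_atlas C2 x)).contDiffAt ((chartAt C2 x).open_target.mem_nhds
      (mem_chart_target C2 x))).of_le (WithTop.coe_le_coe.2 le_top)))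
    (Eventually.of_forall fun y => ?_) i j
  simp

theorem ricF_comp {Y : Type} [TopologicalSpace Y] [ChartedSpace C2 Y] [IsManifold 𝓘(ℂ, C2) ω Y]
    {q : Y → M} (hq : ChartMap q) (g : M → Matrix (Fin 2) (Fin 2) ℂ) (y : Y) :
    H821.ricF (fun z => g (q z)) y = H821.ricF g (q y) := by
  rw [H821.ricF, H821.ricF, hq.apply_eq]
  refine H332.ddz_congr ?_
  filter_upwards [hq.loc11_germ g y] with z hz
  rw [hz]

end forms

theorem Gauged.exists_w [ConnectedSpace X] {O : BlockOut X n} (G : Gauged O) :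
    ∃ w : Cov O.B.hh → ℝ, ContMDiff 𝓘(ℝ, C2) 𝓘(ℝ) ∞ w ∧
      ∀ y, ∑ᶠ c : Fin n × ℤ, curvN (G.N c) y =
        H821.ricF O.B.D.h y - ddb (fun x => (w x : ℂ)) y := by
  have hO : H928.K1.OutData O.B.hh O.E O.i₀ O.R := ⟨O.triv, O.dot, O.can⟩
  obtain ⟨β, hβ, hβd'⟩ := H928.K1.k1_chern hO O.vii.b2 (a := G.b) (fun i => (G.hol i).smooth)
    (R' := G.R') (fun i x hx => G.a_zero i x (by rw [O.B.f_eq]; exact hx)) O.B.g_herm
  have hβd : ∀ x, β.d.f20 x = -∑ i, push Cov.p (G.F i).f20 x ∧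
      β.d.f11 x = H821.ricF O.B.g x - ∑ i, push Cov.p (G.F i).f11 x ∧
      β.d.f02 x = -∑ i, push Cov.p (G.F i).f02 x := by
    intro x
    rw [hβd']
    refine ⟨?_, ?_, ?_⟩
    · simp [H821.FK, push2, Gauged.F]
    · simp [H821.FK, push2, Gauged.F]
    · simp [H821.FK, push2, Gauged.F]
  have hF20 : ∀ i, (G.F i).f20 = fun _ => 0 := fun i => by rw [G.F_eq]
  have hF02 : ∀ i, (G.F i).f02 = fun _ => 0 := fun i => by rw [G.F_eq]
  have hd : β.d = ⟨fun _ => 0, β.d.f11, fun _ => 0⟩ := by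
    refine twoF_ext (fun x => ?_) (fun x => rfl) fun x => ?_
    · rw [(hβd x).1]
      simp only [hF20, push_const_zero, Finset.sum_const_zero, neg_zero]
    · rw [(hβd x).2.2]
      simp only [hF02, push_const_zero, Finset.sum_const_zero, neg_zero]
  have hpush : ∀ i (y : Cov O.B.hh), push Cov.p (G.F i).f11 (Cov.p y) =
      ∑ᶠ k : ℤ, curvN (G.N₀ i) (O.B.D.sh k y) := by
    intro i y
    rw [push_p, G.F11]
    refine finsum_congr fun k => ?_
    rw [sh_eq_shift' O.B]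
  have hherm : ∀ x i j, β.d.f11 x j i = conj (β.d.f11 x i j) := by
    intro x
    obtain ⟨y, rfl⟩ := Cov.surjective_p (h := O.B.hh) x
    have h1 : β.d.f11 (Cov.p y) = H821.ricF O.B.g (Cov.p y) -
        ∑ᶠ c : Fin n × ℤ, curvN (G.N c) y := by
      rw [(hβd _).2.1, G.finsum_curvN]
      simp only [hpush]
    have h2 : ∀ i j, (∑ᶠ c : Fin n × ℤ, curvN (G.N c) y) j i =
        conj ((∑ᶠ c : Fin n × ℤ, curvN (G.N c) y) i j) := by
      refine finsum_induction (fun A : Matrix (Fin 2) (Fin 2) ℂ => ∀ i j, A j i = conj (A i j))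
        (fun i j => by simp) (fun A B hA hB i j => ?_) fun c i j => ?_
      · rw [Matrix.add_apply, Matrix.add_apply, hA, hB, map_add]
      · exact H332.cF_imag (G.isNormFn_N c) y i j
    intro i j
    rw [h1, Matrix.sub_apply, Matrix.sub_apply, map_sub, ← h2, ← ricF_herm O.B.g_herm]
  have hd20 : ∀ x, β.d.f20 x = 0 := fun x => by rw [hd]
  have hd02 : ∀ x, β.d.f02 x = 0 := fun x => by rw [hd]
  obtain ⟨c, ψ, hψ, hw⟩ := H821.ddb_cov O.B.smooth O.B.prim O.B.g_herm O.vii.b1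
    (Θ := β.d.f11) (fun x => Matrix.IsHermitian.ext fun i j => (hherm x j i).symm) hβ hd20
    (fun x => rfl) hd02
  refine ⟨fun z => c * Cov.f z + ψ (Cov.p z), hψ, fun y => ?_⟩
  · rw [← hw y, (hβd _).2.1, G.finsum_curvN]
    simp only [hpush]
    have h2 : H821.ricF O.B.D.h y = H821.ricF O.B.g (Cov.p y) := by
      rw [← ricF_comp (chartMap_p (hh := O.B.hh)) O.B.g y]
      congr 1
      funext z
      exact O.B.h_eq z
    rw [h2, sub_sub_cancel]

end Vale.Agent.P267.LineX
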