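import Vale.Agent.P272.GEO.Osgood
import Vale.Agent.P281.MF.Hol
import Vale.Agent.P267.H399.Wirt

/-!
# P267 / GX-K (helper618): local lemmas on `ℂ²`

* `exists_hol_of_ddb`: a pluriharmonic function on a ball is the real part of a holomorphic one;
* `diffOn_of_tendsto`: locally uniform limits of holomorphic functions;
* `diffOn_tsum`: normally convergent series.
-/

set_option linter.unusedVariables false

open scoped Manifold ContDiff ComplexConjugate Topology
open Set Filter Metric

noncomputable section

namespace Vale.Agent.P267.H618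

open FL

/-- the `(1,0)`-part of the differential as a complex linear form -/
def del (Y : C2 → ℂ) (z : C2) : C2 →L[ℂ] ℂ :=
  ∑ i, dz i Y z • (ContinuousLinearMap.proj i : C2 →L[ℂ] ℂ)

theorem del_apply (Y : C2 → ℂ) (z v : C2) : del Y z v = ∑ i, dz i Y z * v i := by
  simp [del]

/-- A pluriharmonic function on a ball is `H + conj H` with `H` holomorphic. -/
theorem exists_hol_of_ddb {c : C2} {r : ℝ} {Y : C2 → ℂ} (hY : ContDiffOn ℝ ∞ Y (ball c r))
    (hreal : ∀ z ∈ ball c r, conj (Y z) = Y z)
    (h : ∀ z ∈ ball c r, ∀ i j, dz i (dzb j Y) z = 0) :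
    ∃ H : C2 → ℂ, DifferentiableOn ℂ H (ball c r) ∧ ∀ z ∈ ball c r, Y z = H z + conj (H z) := by
  rcases (ball c r).eq_empty_or_nonempty with he | hne
  · exact ⟨0, by simp [he], by simp [he]⟩
  have hO : IsOpen (ball c r) := isOpen_ball
  have hYa : ∀ z ∈ ball c r, ContDiffAt ℝ ∞ Y z := fun z hz => hY.contDiffAt (hO.mem_nhds hz)
  have hY2 : ∀ z ∈ ball c r, ContDiffAt ℝ 2 Y z := fun z hz => (hYa z hz).of_le (by
    exact WithTop.coe_le_coe.2 le_top)
  have hdz : ∀ i, ∀ z ∈ ball c r, DifferentiableAt ℝ (dz i Y) z := fun i z hz =>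
    (contDiffAt_dz (m := 1) (n := ∞) (hYa z hz) (WithTop.coe_le_coe.2 le_top) i).differentiableAt (by simp)
  have hω : DifferentiableOn ℝ (del Y) (ball c r) := by
    intro z hz
    apply DifferentiableAt.differentiableWithinAt
    unfold del
    apply DifferentiableAt.fun_sum
    intro i _
    exact (hdz i z hz).smul_const _
  have hfd : ∀ z ∈ ball c r, ∀ x y, fderiv ℝ (del Y) z x y =
      ∑ i, fderiv ℝ (dz i Y) z x * y i := by
    intro z hz x y
    have h1 : fderiv ℝ (fun w => del Y w y) z x = fderiv ℝ (del Y) z x y := by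
      have h2 : HasFDerivAt (del Y) (fderiv ℝ (del Y) z) z :=
        ((hω z hz).differentiableAt (hO.mem_nhds hz)).hasFDerivAt
      have h3 : HasFDerivAt (fun w => del Y w y)
          (((ContinuousLinearMap.apply ℂ ℂ y).restrictScalars ℝ).comp (fderiv ℝ (del Y) z)) z :=
        ((ContinuousLinearMap.apply ℂ ℂ y).restrictScalars ℝ).hasFDerivAt.comp z h2
      rw [h3.fderiv]
      rfl
    rw [← h1]
    have h4 : (fun w => del Y w y) = fun w => ∑ i, dz i Y w * y i := by
      funext w
      exact del_apply Y w y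
    rw [h4, fderiv_fun_sum fun i _ => (hdz i z hz).mul_const (y i)]
    rw [ContinuousLinearMap.sum_apply]
    refine Finset.sum_congr rfl fun i _ => ?_
    rw [fderiv_mul_const (hdz i z hz)]
    simp [mul_comm]
  have hsymm : ∀ z ∈ ball c r, ∀ x y, fderiv ℝ (del Y) z x y = fderiv ℝ (del Y) z y x := by
    intro z hz x y
    have key : ∀ i, ∀ v : C2, fderiv ℝ (dz i Y) z v = ∑ j, v j * dz j (dz i Y) z := by
      intro i v
      rw [fderiv_eq_wirt v]
      refine Finset.sum_congr rfl fun j _ => ?_
      rw [← dz_dzb_comm (hY2 z hz) i j, h z hz i j, smul_zero, add_zero, smul_eq_mul]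
    rw [hfd z hz, hfd z hz]
    simp only [key, Fin.sum_univ_two]
    have hc := dz_dz_comm (hY2 z hz) 0 1
    linear_combination (x 0 * y 1 - x 1 * y 0) * hc
  obtain ⟨H, hH⟩ := (convex_ball c r).exists_forall_hasFDerivAt_of_fderiv_symmetric hO hω hsymm
  have hHd : ∀ z ∈ ball c r, DifferentiableAt ℂ H z := fun z hz => (hH z hz).differentiableAt
  have hHr : ∀ z ∈ ball c r, DifferentiableAt ℝ H z := fun z hz => (hHd z hz).restrictScalars ℝ
  have hHz : ∀ z ∈ ball c r, ∀ i, dz i H z = dz i Y z := by
    intro z hz i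
    rw [dz_of_hol (hHd z hz), (hH z hz).fderiv, del_apply]
    simp [Pi.single_apply]
  set D : C2 → ℂ := fun z => Y z - H z - conj (H z) with hD
  have hYr : ∀ z ∈ ball c r, DifferentiableAt ℝ Y z := fun z hz =>
    (hYa z hz).differentiableAt (by simp)
  have hDd : ∀ z ∈ ball c r, fderiv ℝ D z = 0 := by
    intro z hz
    have hcH := differentiableAt_conj (hHr z hz)
    have h1 : ∀ i, dz i D z = 0 := by
      intro i
      have e1 : dz i D z = dz i (fun w => Y w - H w) z - dz i (fun w => conj (H w)) z :=
        dz_sub ((hYr z hz).sub (hHr z hz)) hcH i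
      rw [e1, dz_sub (hYr z hz) (hHr z hz), dz_conj (hHr z hz), dzb_of_hol (hHd z hz), hHz z hz]
      simp
    have h2 : ∀ i, dzb i D z = 0 := by
      intro i
      have e1 : dzb i D z = dzb i (fun w => Y w - H w) z - dzb i (fun w => conj (H w)) z :=
        dzb_sub ((hYr z hz).sub (hHr z hz)) hcH i
      have e2 : dzb i Y z = conj (dz i Y z) := by
        have e3 : dzb i (fun w => conj (Y w)) z = dzb i Y z := by
          apply dzb_congr
          filter_upwards [hO.mem_nhds hz] with w hw
          exact hreal w hw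
        rw [← e3, dzb_conj (hYr z hz)]
      rw [e1, dzb_sub (hYr z hz) (hHr z hz), dzb_conj (hHr z hz), dzb_of_hol (hHd z hz), hHz z hz,
        e2]
      simp
    ext v
    rw [fderiv_eq_wirt v]
    simp [h1, h2]
  obtain ⟨z0, hz0⟩ := hne
  have hconst : ∀ z ∈ ball c r, D z = D z0 := by
    intro z hz
    refine (convex_ball c r).is_const_of_fderivWithin_eq_zero (𝕜 := ℝ) ?_ ?_ hz hz0
    · intro w hw
      exact (((hYr w hw).sub (hHr w hw)).sub (differentiableAt_conj (hHr w hw))).differentiableWithinAt
    · intro w hw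
      rw [fderivWithin_of_isOpen hO hw, hDd w hw]
  have hDreal : conj (D z0) = D z0 := by
    simp only [hD, map_sub, Complex.conj_conj, hreal z0 hz0]
    ring
  refine ⟨fun z => H z + D z0 / 2, fun z hz => ((hHd z hz).add_const _).differentiableWithinAt,
    fun z hz => ?_⟩
  have h1 := hconst z hz
  have h2 : Y z = H z + conj (H z) + D z0 := by
    rw [← h1]; simp only [hD]; ring
  rw [h2, map_add, map_div₀, hDreal]
  have : conj (2 : ℂ) = 2 := Complex.conj_ofNat 2
  rw [this]
  ring

/-- Locally uniform limits of holomorphic functions are holomorphic. -/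
theorem diffOn_of_tendsto {T : Type*} {l : Filter T} [l.NeBot] {U : Set C2} (hU : IsOpen U)
    {F : T → C2 → ℂ} {f : C2 → ℂ} (h : TendstoLocallyUniformlyOn F f l U)
    (hF : ∀ᶠ n in l, DifferentiableOn ℂ (F n) U) : DifferentiableOn ℂ f U := by
  apply Vale.Agent.P272.GEO.osgood hU
  · exact h.continuousOn ((hF.mono fun n hn => hn.continuousOn).frequently)
  · intro x hx i
    set W : Set ℂ := (fun τ : ℂ => Function.update x i τ) ⁻¹' U with hW
    have hcu : Continuous fun τ : ℂ => Function.update x i τ := continuous_const.update i continuous_id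
    have hWo : IsOpen W := hU.preimage hcu
    have hxW : x i ∈ W := by
      simp only [hW, mem_preimage, Function.update_eq_self]
      exact hx
    have h1 : TendstoLocallyUniformlyOn (fun n τ => F n (Function.update x i τ))
        (fun τ => f (Function.update x i τ)) l W :=
      h.comp (fun τ : ℂ => Function.update x i τ) (fun τ hτ => hτ) hcu.continuousOn
    have h2 : DifferentiableOn ℂ (fun τ => f (Function.update x i τ)) W := by
      refine h1.differentiableOn ?_ hWo
      filter_upwards [hF] with n hn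
      intro τ hτ
      have h3 : DifferentiableAt ℂ (F n) (Function.update x i τ) :=
        (hn _ hτ).differentiableAt (hU.mem_nhds hτ)
      exact (h3.comp τ (hasDerivAt_update x i τ).differentiableAt).differentiableWithinAt
    exact (h2 _ hxW).differentiableAt (hWo.mem_nhds hxW)

/-- Normally convergent series of holomorphic functions. -/
theorem diffOn_tsum {T : Type*} {U : Set C2} (hU : IsOpen U) {g : T → C2 → ℂ} {b : T → ℝ}
    (hb : Summable b) (hg : ∀ l, DifferentiableOn ℂ (g l) U) (hgb : ∀ l, ∀ z ∈ U, ‖g l z‖ ≤ b l) :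
    DifferentiableOn ℂ (fun z => ∑' l, g l z) U := by
  have h1 := tendstoUniformlyOn_tsum hb hgb
  refine diffOn_of_tendsto hU h1.tendstoLocallyUniformlyOn (Eventually.of_forall fun s => ?_)
  exact DifferentiableOn.fun_sum fun l _ => hg l

end Vale.Agent.P267.H618
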