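import Vale.Agent.P267.H618.Exact
import Vale.Agent.P267.H821.Geo

/-!
# P267 / LINE X (helper618): the chain of curves with gauged norm functions as a `Geo`
-/

set_option linter.unusedVariables false
set_option linter.unusedSectionVars false

open scoped Manifold ContDiff ComplexConjugate Matrix Topology
open Set Filter Function
open Vale.Agent.P267.FL Vale.Agent.P267.H158 Vale.Agent.P267.XT Vale.Agent.P267.H338
open Vale.Agent.P267.H757 (IsNormFn)
open Vale.Agent.P267.H332 (curvN)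
open Vale.Agent.P267.H821 (Eqv)

noncomputable section

namespace Vale.Agent.P267.LineX

variable {X : Type} [TopologicalSpace X] [T2Space X] [CompactSpace X] [ChartedSpace C2 X]
  [IsManifold 𝓘(ℂ, C2) ω X] {n : ℕ} {O : BlockOut X n}

theorem Gauged.eqv_N (G : Gauged O) (c : Fin n × ℤ) : Eqv O.B.D.f univ (G.N c) (O.N c) := by
  obtain ⟨K, hK, h⟩ := G.γ_in c
  exact ⟨G.γ c, (G.γ_smooth c).contMDiffOn, fun x _ => G.γ_pos c x, fun x _ => G.N_eq c x, K, hK,
    fun x _ hx => h x hx⟩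

namespace Chain

variable (Ch : Chain O)

theorem ord_small (b : ℤ) : ∃ l₀ : ℤ, ∀ c : Fin n × ℤ, Ch.ord c ≤ l₀ → c.2 ≤ b := by
  have hn : (0 : ℤ) < n := by exact_mod_cast O.vii.pos
  obtain ⟨m, hm⟩ := (Set.finite_range fun i : Fin n => Ch.ord (i, 0)).bddBelow
  refine ⟨m + n * b, fun c hc => ?_⟩
  have h1 : m ≤ Ch.ord (c.1, 0) := hm ⟨c.1, rfl⟩
  have h2 : Ch.ord c = Ch.ord (c.1, 0) + n * c.2 := Ch.ord_add c.1 c.2
  have h3 : n * c.2 ≤ n * b := by linarith
  exact le_of_mul_le_mul_left h3 hn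

theorem f_sh_one (x : Cov O.B.hh) : O.B.D.f (O.B.D.sh 1 x) = O.B.D.f x + 1 := by
  rw [O.B.D.f_sh]
  simp

theorem C_shift_le (l : ℤ) (k : ℕ) {b : ℝ} (h : ∀ x ∈ (Ch.C l).image, b ≤ O.B.D.f x) :
    ∀ x ∈ (Ch.C (l + n * k)).image, b + k ≤ O.B.D.f x := by
  induction k with
  | zero => simpa using h
  | succ k ih =>
    intro x hx
    have h1 : l + n * ((k + 1 : ℕ) : ℤ) = (l + n * k) + n := by
      push_cast
      ring
    rw [h1, Ch.C_shift] at hx
    obtain ⟨y, hy, rfl⟩ := hx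
    rw [f_sh_one]
    have := ih y hy
    push_cast
    linarith

theorem C_far (b : ℝ) : ∃ L : ℤ, ∀ l, L ≤ l → ∀ x ∈ (Ch.C l).image, b ≤ O.B.D.f x := by
  have hn : (0 : ℤ) < n := by exact_mod_cast O.vii.pos
  have hb : ∀ l : ℤ, ∃ b' : ℝ, ∀ x ∈ (Ch.C l).image, b' ≤ O.B.D.f x := by
    intro l
    obtain ⟨b', hb'⟩ := ((Ch.C l).isCompact_image.image Gauged.continuous_f).bddBelow
    exact ⟨b', fun x hx => hb' (mem_image_of_mem _ hx)⟩
  choose g hg using hb
  obtain ⟨g₀, hg₀⟩ := ((Finset.Ico (0 : ℤ) n).finite_toSet.image g).bddBelow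
  obtain ⟨K, hK⟩ := exists_nat_ge (b - g₀)
  refine ⟨n * K, fun l hl x hx => ?_⟩
  have hl0 : 0 ≤ l := le_trans (by positivity) hl
  set r := l % n with hr
  set q := l / n with hq
  have h1 : l = r + n * q := (Int.emod_add_mul_ediv l n).symm
  have hr0 : 0 ≤ r := Int.emod_nonneg l hn.ne'
  have hrn : r < n := Int.emod_lt_of_pos l hn
  have hq0 : 0 ≤ q := Int.ediv_nonneg hl0 hn.le
  have hqK : (K : ℤ) ≤ q := by
    rw [hq]
    exact (Int.le_ediv_iff_mul_le hn).2 (by linarith)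
  obtain ⟨k, hk⟩ := Int.eq_ofNat_of_zero_le hq0
  rw [h1, hk] at hx
  have h2 := Ch.C_shift_le r k (hg r) x hx
  have h3 : g₀ ≤ g r := hg₀ ⟨r, by simp [hr0, hrn], rfl⟩
  have h4 : (K : ℝ) ≤ k := by
    rw [hk] at hqK
    exact_mod_cast hqK
  linarith

/-- the geometry of the chain of curves -/
def toGeo (G : Gauged O) (w : Cov O.B.hh → ℝ) (hw : ContMDiff 𝓘(ℝ, C2) 𝓘(ℝ) ∞ w)
    (hcurv : ∀ y, ∑ᶠ c : Fin n × ℤ, curvN (G.N c) y =
        H821.ricF O.B.D.h y - ddb (fun x => (w x : ℂ)) y) : H821.Geo (Cov O.B.hh) where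
  f := O.B.D.f
  f_cont := Gauged.continuous_f
  f_proper := O.B.D.f_proper
  s := Ch.s
  word := ⟨Ch.s_pos, Ch.word⟩
  C l := (Ch.C l).image
  C_cpt l := (Ch.C l).isCompact_image
  C_far := Ch.C_far
  Nc := Ch.Nc
  Nc_norm := Ch.Nc_norm
  Nc_zero := Ch.Nc_zero
  Nc_in := Ch.Nc_in
  N l := G.N (Ch.ord.symm l)
  N_norm l := G.isNormFn_N _
  div l := by
    have h1 := G.eqv_N (Ch.ord.symm l)
    have h2 : Eqv O.B.D.f univ (O.N (Ch.ord.symm l))
        (fun x => Ch.Nc l x * ∏ j ∈ H781.Iv Ch.s l, O.N (Ch.ord.symm j) x) := by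
      refine Eqv.of_eq fun x _ => ?_
      rw [Ch.div l x]
      have : Finset.Ico (l - Ch.s l) l = H781.Iv Ch.s l := by
        ext j
        rw [H781.mem_Iv, Finset.mem_Ico]
        omega
      rw [this]
    refine (h1.trans h2).trans ((Eqv.refl _ _ _).mul (Eqv.prod _ fun j _ => ?_))
    exact (G.eqv_N (Ch.ord.symm j)).symm
  zero l x := by rw [G.N_zero, Ch.zero]
  disj := Ch.disj
  node := Ch.node
  transv := Ch.transv
  N_in l ε hε := G.N_in _ ε hε
  N_one a := by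
    obtain ⟨K, hK⟩ := Ch.ord_small ⌊a - G.R'⌋
    refine ⟨K, fun l hl x hx => G.N_out _ ?_⟩
    have h1 := hK (Ch.ord.symm l) (by rwa [Equiv.apply_symm_apply])
    have h2 : ((Ch.ord.symm l).2 : ℝ) ≤ a - G.R' := by
      refine le_trans ?_ (Int.floor_le (a - G.R'))
      exact_mod_cast h1
    linarith
  N_out l := ⟨(Ch.ord.symm l).2 + G.R', fun x hx => G.N_out _ (by linarith)⟩
  exact b := by
    obtain ⟨L, hL⟩ := Ch.ord_large' (b + G.R')
    refine ⟨L, fun l hl => ⟨G.ζ (Ch.ord.symm l), fun x hx => G.ζ_mdiff _ ?_,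
      fun x hx => G.norm_ζ _ ?_⟩⟩
    · have := hL (Ch.ord.symm l) (by rwa [Equiv.apply_symm_apply])
      linarith
    · have := hL (Ch.ord.symm l) (by rwa [Equiv.apply_symm_apply])
      linarith
  h := O.B.D.h
  herm := O.B.D.herm
  w := w
  w_smooth := hw
  curv y := by
    rw [← hcurv y]
    exact finsum_comp_equiv Ch.ord.symm (f := fun c => curvN (G.N c) y)

end Chain

end Vale.Agent.P267.LineX
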